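import Vale.Agent.P105.Singular

/-!
# A singular Bernoulli convolution whose inverse parameter is not a Pisot number
-/

open MeasureTheory Vale.Agent.P105

namespace Vale.Agent.Results.P105.SalemSingular

theorem result :
    ∃ l : ℝ, 1 / 2 < l ∧ l < 1 ∧ l ^ 4 - l ^ 3 - l ^ 2 - l + 1 = 0 ∧ ¬ IsPisot l⁻¹ ∧
      IsProbabilityMeasure (bernoulliConvolution l) ∧
      bernoulliConvolution l ⟂ₘ (volume : Measure ℝ) := by
  refine ⟨beta⁻¹, ?_, lam_lt_one, ?_, ?_, isProbabilityMeasure_conv, mutuallySingular_beta⟩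
  · rw [one_div, inv_lt_inv₀ (by norm_num) beta_pos]
    linarith [beta_lt]
  · have h : beta ^ 4 - beta ^ 3 - beta ^ 2 - beta + 1 = 0 := by
      linear_combination (beta ^ 2 + (y1 - 1) * beta + 1) * beta_sq + beta ^ 2 * y1_sq
    have hb : beta ≠ 0 := beta_pos.ne'
    field_simp
    linear_combination h
  · rw [inv_inv]
    exact not_isPisot_beta

end Vale.Agent.Results.P105.SalemSingular
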